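import Mathlib.Algebra.Ring.IsFormallyReal
import Mathlib.Analysis.CStarAlgebra.ContinuousLinearMap
import Mathlib.Analysis.CStarAlgebra.Module.Constructions
import Mathlib.Analysis.Calculus.ParametricIntervalIntegral
import Mathlib.Analysis.Complex.AbsMax
import Mathlib.Analysis.InnerProductSpace.Positive
import Mathlib.Analysis.Normed.Operator.Prod
import Mathlib.Analysis.Real.Pi.Bounds
import Mathlib.Analysis.SpecialFunctions.Integrals.Basic
import Mathlib.RingTheory.SimpleRing.Principal
import Mathlib.Tactic
import Mathlib.Topology.Compactness.CompactlyGeneratedSpace
import Mathlib.Topology.Order.LowerUpperTopology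
import Mathlib.Topology.UniformSpace.Uniformizable

/-! The part of Mathlib that the development of this folder uses. -/
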